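import Vale.Agent.P146.U.Ex0

/-!
# P146: the conditional Hölder recursion for a likelihood ratio (helper112)

`L j` is a positive function on `κ → ℝ`, evaluated at a Gaussian vector of standard deviation
`r j`, `r j ^ 2 = r (j + 1) ^ 2 + s j ^ 2`. Two applications of the Cauchy-Schwarz inequality in
each window replace `L j` by `L (j + 1)` and double the exponent; the total cost is the sum of
`ξ j / 2 ^ (j + 1)`, `exp (ξ j)` being the two-time moment `E [L j ^ 2 / L (j + 1)]`.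
-/

open MeasureTheory ProbabilityTheory

namespace Vale.Agent.P146.H112

open Vale.Agent.P157.Lv Vale.Agent.P146.H425 Vale.Agent.P146.R1 Vale.Agent.P146.U

set_option linter.unusedSectionVars false

variable {κ : Type} [Fintype κ]

lemma eg_sqrt {f : (κ → ℝ) → ℝ} (hf : EG f) : EG fun z => √(f z) := by
  have h1 : EG fun z => 1 + |f z| := (EG.const 1).add hf.abs
  refine h1.mono hf.meas.sqrt fun z => ?_
  rw [abs_of_nonneg (Real.sqrt_nonneg _), abs_of_nonneg (by positivity)]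
  rcases le_total (f z) 0 with h | h
  · rw [Real.sqrt_eq_zero_of_nonpos h]
    positivity
  · rw [abs_of_nonneg h]
    nlinarith [Real.sq_sqrt h, Real.sqrt_nonneg (f z), sq_nonneg (√(f z) - 1)]

lemma eg_avg {f : (κ → ℝ) → ℝ} (hf : EG f) (s : ℝ) :
    EG fun y => ∫ z, f (y + s • z) ∂(gI κ) := by
  obtain ⟨C, a, hC, ha, hb⟩ := id hf.bdd
  have hp : 0 ≤ ∫ z : κ → ℝ, Real.exp (a * |s| * ‖z‖) ∂(gI κ) :=
    integral_nonneg fun z => (Real.exp_pos _).le
  refine ⟨?_, C * ∫ z, Real.exp (a * |s| * ‖z‖) ∂(gI κ), a, mul_nonneg hC hp, ha, fun y => ?_⟩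
  · have m1 : Measurable fun p : (κ → ℝ) × (κ → ℝ) => p.1 + s • p.2 := by fun_prop
    exact (StronglyMeasurable.integral_prod_right' (ν := gI κ)
      (f := fun p : (κ → ℝ) × (κ → ℝ) => f (p.1 + s • p.2))
      (hf.meas.comp m1).stronglyMeasurable).measurable
  · refine (abs_integral_le_integral_abs).trans ?_
    have e1 : C * (∫ z : κ → ℝ, Real.exp (a * |s| * ‖z‖) ∂(gI κ)) * Real.exp (a * ‖y‖) =
        ∫ z : κ → ℝ, (C * Real.exp (a * ‖y‖)) * Real.exp (a * |s| * ‖z‖) ∂(gI κ) := by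
      rw [integral_const_mul]
      ring
    rw [e1]
    refine integral_mono (EG.add_smul hf y s).integrable.abs
      ((integrable_exp_norm _).const_mul _) fun z => ?_
    simp only
    refine (hb _).trans ?_
    rw [mul_assoc, ← Real.exp_add]
    refine mul_le_mul_of_nonneg_left (Real.exp_le_exp.2 ?_) hC
    have h3 : ‖y + s • z‖ ≤ ‖y‖ + |s| * ‖z‖ := by
      refine (norm_add_le _ _).trans ?_
      rw [norm_smul, Real.norm_eq_abs]
    nlinarith [mul_le_mul_of_nonneg_left h3 ha]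

/-- Cauchy-Schwarz -/
lemma cs_gI {f g : (κ → ℝ) → ℝ} (hf : EG f) (hg : EG g) :
    ∫ z, f z * g z ∂(gI κ) ≤ √(∫ z, f z ^ 2 ∂(gI κ)) * √(∫ z, g z ^ 2 ∂(gI κ)) := by
  have h1 : ∀ t : ℝ, 0 ≤ (∫ z, g z ^ 2 ∂(gI κ)) * (t * t) +
      (-2 * ∫ z, f z * g z ∂(gI κ)) * t + ∫ z, f z ^ 2 ∂(gI κ) := by
    intro t
    have h2 : 0 ≤ ∫ z, (f z - t * g z) ^ 2 ∂(gI κ) := integral_nonneg fun z => sq_nonneg _
    have e1 : ∫ z, (f z - t * g z) ^ 2 ∂(gI κ) = (∫ z, g z ^ 2 ∂(gI κ)) * (t * t) +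
        (-2 * ∫ z, f z * g z ∂(gI κ)) * t + ∫ z, f z ^ 2 ∂(gI κ) := by
      have e2 : (fun z => (f z - t * g z) ^ 2) =
          fun z => (t * t) * g z ^ 2 + (-2 * t) * (f z * g z) + f z ^ 2 := by
        funext z; ring
      rw [e2, integral_add (((hg.pow 2).const_mul _).add ((hf.mul hg).const_mul _)).integrable
        (hf.pow 2).integrable, integral_add ((hg.pow 2).const_mul _).integrable
        ((hf.mul hg).const_mul _).integrable, integral_const_mul, integral_const_mul]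
      ring
    rwa [e1] at h2
  have h2 := discrim_le_zero h1
  unfold discrim at h2
  have hA : 0 ≤ ∫ z, f z ^ 2 ∂(gI κ) := integral_nonneg fun z => sq_nonneg _
  rw [← Real.sqrt_mul hA]
  refine Real.le_sqrt_of_sq_le ?_
  nlinarith

variable {L L' V F : (κ → ℝ) → ℝ} {r r' s x ξ : ℝ}

/-- the value of the tilted functional -/
noncomputable def MM (L V : (κ → ℝ) → ℝ) (r x : ℝ) : ℝ :=
  ∫ z, L (r • z) * Real.exp (x * V (r • z)) ∂(gI κ)

lemma eg_MM (hL : EG L) (hV : Lip V) (r x : ℝ) :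
    EG fun z => L (r • z) * Real.exp (x * V (r • z)) := by
  have h1 := EG.add_smul (hL.mul (hV.exp_eg x)) 0 r
  simpa only [zero_add] using h1

lemma MM_pos (hL : EG L) (hL0 : ∀ z, 0 < L z) (hV : Lip V) (r x : ℝ) : 0 < MM L V r x := by
  unfold MM
  have e : (fun z => L (r • z) * Real.exp (x * V (r • z))) =
      fun z => Real.exp (Real.log (L (r • z)) + x * V (r • z)) := by
    funext z
    rw [Real.exp_add, Real.exp_log (hL0 _)]
  have hi := (eg_MM hL hV r x).integrable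
  rw [e] at hi ⊢
  exact integral_exp_pos hi

/-- one window -/
theorem rec_step (hL : EG L) (hL' : EG L') (hL0' : ∀ z, 0 < L' z)
    (hLi : EG fun z => (L' z)⁻¹) (hV : Lip V) (hx : 0 < x) (hr : r' ^ 2 + s ^ 2 = r ^ 2)
    (hξ : ∫ z, (∫ z', L (r' • z + s • z') ^ 2 ∂(gI κ)) / L' (r' • z) ∂(gI κ) ≤ Real.exp ξ) :
    MM L V r x ≤ Real.exp (ξ / 2) * √(MM L' (W (2 * x) s V) r' (2 * x)) := by
  have hx2 : 0 < 2 * x := by linarith
  have hV' : Lip (W (2 * x) s V) := Lip.W hV hx2 s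
  have hf : EG fun y => L y * Real.exp (x * V y) := hL.mul (hV.exp_eg x)
  have h1 := gI_rot hf hr 0
  simp only [zero_add] at h1
  unfold MM
  rw [← h1]
  have hA : EG fun y => ∫ z', L (y + s • z') ^ 2 ∂(gI κ) := eg_avg (hL.pow 2) s
  -- the inner Cauchy-Schwarz
  have h2 : ∀ y, ∫ z', L (y + s • z') * Real.exp (x * V (y + s • z')) ∂(gI κ) ≤
      √(∫ z', L (y + s • z') ^ 2 ∂(gI κ)) * Real.exp (x * W (2 * x) s V y) := by
    intro y
    have h3 := cs_gI (EG.add_smul hL y s) (Lip.egx hV y s x)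
    have e1 : ∫ z, Real.exp (x * V (y + s • z)) ^ 2 ∂(gI κ) =
        Real.exp (x * W (2 * x) s V y) ^ 2 := by
      rw [← Real.exp_nat_mul]
      have e2 := exp_W' hV hx2 s y
      have e3 : ((2 : ℕ) : ℝ) * (x * W (2 * x) s V y) = 2 * x * W (2 * x) s V y := by
        push_cast; ring
      rw [e3, e2]
      congr 1
      funext z
      rw [← Real.exp_nat_mul]
      congr 1
      push_cast
      ring
    rw [e1, Real.sqrt_sq (Real.exp_pos _).le] at h3
    exact h3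
  have e0 : ∀ {f : (κ → ℝ) → ℝ}, EG f → EG fun z => f (r' • z) := fun {f} h => by
    simpa only [zero_add] using EG.add_smul h 0 r'
  have h4 : ∫ z, (∫ z', L (r' • z + s • z') * Real.exp (x * V (r' • z + s • z')) ∂(gI κ))
      ∂(gI κ) ≤ ∫ z, √((∫ z', L (r' • z + s • z') ^ 2 ∂(gI κ)) / L' (r' • z)) *
        (√(L' (r' • z)) * Real.exp (x * W (2 * x) s V (r' • z))) ∂(gI κ) := by
    refine integral_mono (e0 (eg_avg hf s)).integrable ?_ fun z => ?_
    · exact ((e0 (eg_sqrt (hA.mul hLi))).mul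
        ((e0 (eg_sqrt hL')).mul (e0 (hV'.exp_eg x)))).integrable
    · refine (h2 (r' • z)).trans (le_of_eq ?_)
      have h5 : 0 ≤ ∫ z', L (r' • z + s • z') ^ 2 ∂(gI κ) := integral_nonneg fun _ => sq_nonneg _
      rw [← mul_assoc, Real.sqrt_div h5, div_mul_cancel₀ _ (Real.sqrt_pos.2 (hL0' _)).ne']
  refine h4.trans ?_
  have h6 := cs_gI (e0 (eg_sqrt (hA.mul hLi))) ((e0 (eg_sqrt hL')).mul (e0 (hV'.exp_eg x)))
  have e5 : ∀ z : κ → ℝ, √((∫ z', L (r' • z + s • z') ^ 2 ∂(gI κ)) * (L' (r' • z))⁻¹) ^ 2 =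
      (∫ z', L (r' • z + s • z') ^ 2 ∂(gI κ)) / L' (r' • z) := fun z => by
    have h5 : 0 ≤ ∫ z', L (r' • z + s • z') ^ 2 ∂(gI κ) := integral_nonneg fun _ => sq_nonneg _
    rw [Real.sq_sqrt (mul_nonneg h5 (inv_nonneg.2 (hL0' _).le))]
    rfl
  have e6 : ∀ z : κ → ℝ, (√(L' (r' • z)) * Real.exp (x * W (2 * x) s V (r' • z))) ^ 2 =
      L' (r' • z) * Real.exp (2 * x * W (2 * x) s V (r' • z)) := fun z => by
    rw [mul_pow, Real.sq_sqrt (hL0' _).le, ← Real.exp_nat_mul]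
    congr 2
    push_cast
    ring
  simp only [e5, e6] at h6
  refine h6.trans ?_
  refine mul_le_mul_of_nonneg_right ?_ (Real.sqrt_nonneg _)
  rw [show Real.exp (ξ / 2) = √(Real.exp ξ) by
    rw [Real.exp_half]]
  exact Real.sqrt_le_sqrt hξ

/-- the last window -/
theorem rec_last (hL : EG L) (hV : Lip V) (hx : 0 < x)
    (hξ : ∫ z, L (r • z) ^ 2 ∂(gI κ) ≤ Real.exp ξ) :
    MM L V r x ≤ Real.exp (ξ / 2) * Real.exp (x * W (2 * x) r V 0) := by
  have hx2 : 0 < 2 * x := by linarith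
  unfold MM
  have h3 := cs_gI (EG.add_smul hL 0 r) (Lip.egx hV 0 r x)
  have e1 : ∫ z, Real.exp (x * V (0 + r • z)) ^ 2 ∂(gI κ) =
      Real.exp (x * W (2 * x) r V 0) ^ 2 := by
    rw [← Real.exp_nat_mul]
    have e2 := exp_W' hV hx2 r 0
    have e3 : ((2 : ℕ) : ℝ) * (x * W (2 * x) r V 0) = 2 * x * W (2 * x) r V 0 := by
      push_cast; ring
    rw [e3, e2]
    congr 1
    funext z
    rw [← Real.exp_nat_mul]
    congr 1
    push_cast
    ring
  rw [e1, Real.sqrt_sq (Real.exp_pos _).le] at h3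
  simp only [zero_add] at h3
  refine h3.trans ?_
  refine mul_le_mul_of_nonneg_right ?_ (Real.exp_pos _).le
  rw [Real.exp_half]
  exact Real.sqrt_le_sqrt hξ

/-- The nested functional: the exponent doubles from one window to the next. -/
noncomputable def VV (x : ℝ) (s : ℕ → ℝ) (F : (κ → ℝ) → ℝ) : ℕ → (κ → ℝ) → ℝ
  | 0 => F
  | j + 1 => W (2 ^ (j + 1) * x) (s j) (VV x s F j)

lemma lip_VV (hF : Lip F) (hx : 0 < x) (s : ℕ → ℝ) (j : ℕ) : Lip (VV x s F j) := by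
  induction j with
  | zero => exact hF
  | succ j ih => exact Lip.W ih (by positivity) _

/-- **The recursion.** -/
theorem rec_main {L : ℕ → (κ → ℝ) → ℝ} {r s ξ : ℕ → ℝ} (N : ℕ) (hL : ∀ j ≤ N, EG (L j))
    (hL0 : ∀ j ≤ N, ∀ z, 0 < L j z) (hLi : ∀ j ≤ N, EG fun z => (L j z)⁻¹) (hF : Lip F)
    (hx : 0 < x) (hr : ∀ j < N, r (j + 1) ^ 2 + s j ^ 2 = r j ^ 2)
    (hξ : ∀ j < N, ∫ z, (∫ z', L j (r (j + 1) • z + s j • z') ^ 2 ∂(gI κ)) /
      L (j + 1) (r (j + 1) • z) ∂(gI κ) ≤ Real.exp (ξ j))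
    (hN : ∫ z, L N (r N • z) ^ 2 ∂(gI κ) ≤ Real.exp (ξ N)) :
    Real.log (∫ z, L 0 (r 0 • z) * Real.exp (x * F (r 0 • z)) ∂(gI κ)) ≤
      ∑ j ∈ Finset.range (N + 1), ξ j / 2 ^ (j + 1) +
        x * W (2 ^ (N + 1) * x) (r N) (VV x s F N) 0 := by
  have h1 : ∀ M ≤ N, Real.log (MM (L 0) F (r 0) x) ≤
      ∑ j ∈ Finset.range M, ξ j / 2 ^ (j + 1) +
        1 / 2 ^ M * Real.log (MM (L M) (VV x s F M) (r M) (2 ^ M * x)) := by
    intro M
    induction M with
    | zero =>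
      intro _
      simp [VV]
    | succ M ih =>
      intro hM
      have hxM : (0 : ℝ) < 2 ^ M * x := by positivity
      have h2 := rec_step (hL M (by omega)) (hL (M + 1) hM) (hL0 (M + 1) hM) (hLi (M + 1) hM)
        (lip_VV hF hx s M) hxM (hr M (by omega)) (hξ M (by omega))
      have e1 : 2 * (2 ^ M * x) = 2 ^ (M + 1) * x := by ring
      rw [e1] at h2
      change MM (L M) (VV x s F M) (r M) (2 ^ M * x) ≤ Real.exp (ξ M / 2) *
        √(MM (L (M + 1)) (VV x s F (M + 1)) (r (M + 1)) (2 ^ (M + 1) * x)) at h2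
      have h3 : 0 < MM (L M) (VV x s F M) (r M) (2 ^ M * x) :=
        MM_pos (hL M (by omega)) (hL0 M (by omega)) (lip_VV hF hx s M) _ _
      have h4 : 0 < MM (L (M + 1)) (VV x s F (M + 1)) (r (M + 1)) (2 ^ (M + 1) * x) :=
        MM_pos (hL (M + 1) hM) (hL0 (M + 1) hM) (lip_VV hF hx s (M + 1)) _ _
      have h5 := Real.log_le_log h3 h2
      rw [Real.log_mul (Real.exp_pos _).ne' (Real.sqrt_pos.2 h4).ne', Real.log_exp,
        Real.log_sqrt h4.le] at h5
      refine (ih (by omega)).trans ?_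
      rw [Finset.sum_range_succ]
      have h6 : 1 / 2 ^ M * Real.log (MM (L M) (VV x s F M) (r M) (2 ^ M * x)) ≤ 1 / 2 ^ M *
          (ξ M / 2 + Real.log (MM (L (M + 1)) (VV x s F (M + 1)) (r (M + 1))
            (2 ^ (M + 1) * x)) / 2) := mul_le_mul_of_nonneg_left h5 (by positivity)
      have e2 : 1 / 2 ^ M * (ξ M / 2 + Real.log (MM (L (M + 1)) (VV x s F (M + 1)) (r (M + 1))
            (2 ^ (M + 1) * x)) / 2) = ξ M / 2 ^ (M + 1) + 1 / 2 ^ (M + 1) *
            Real.log (MM (L (M + 1)) (VV x s F (M + 1)) (r (M + 1)) (2 ^ (M + 1) * x)) := by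
        rw [pow_succ]
        field_simp
      rw [e2] at h6
      linarith
  have h2 := h1 N le_rfl
  have hxN : (0 : ℝ) < 2 ^ N * x := by positivity
  have h3 := rec_last (r := r N) (hL N le_rfl) (lip_VV hF hx s N) hxN hN
  have h4 := Real.log_le_log (MM_pos (hL N le_rfl) (hL0 N le_rfl) (lip_VV hF hx s N) _ _) h3
  rw [Real.log_mul (Real.exp_pos _).ne' (Real.exp_pos _).ne', Real.log_exp, Real.log_exp] at h4
  have e1 : 2 * (2 ^ N * x) = 2 ^ (N + 1) * x := by ring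
  rw [e1] at h4
  have h5 := mul_le_mul_of_nonneg_left h4 (show (0 : ℝ) ≤ 1 / 2 ^ N by positivity)
  rw [Finset.sum_range_succ]
  have e2 : 1 / 2 ^ N * (ξ N / 2 + 2 ^ N * x * W (2 ^ (N + 1) * x) (r N) (VV x s F N) 0) =
      ξ N / 2 ^ (N + 1) + x * W (2 ^ (N + 1) * x) (r N) (VV x s F N) 0 := by
    rw [pow_succ]
    field_simp
  rw [e2] at h5
  change Real.log (MM (L 0) F (r 0) x) ≤ _
  linarith

end Vale.Agent.P146.H112
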