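import Vale.Agent.P146.H112.StartPu
import Vale.Agent.P146.H558.S3Main
import Vale.Agent.P146.H320.ConcSK

/-!
# P146: the start of the lower side of the a priori bound, no hypothesis left (helper112)
-/

open MeasureTheory ProbabilityTheory Filter Topology Set

namespace Vale.Agent.P146.H112

open Vale.Agent.P157.Lv Vale.Agent.P146.H93
open Vale.Agent.P146.H9 (Phn)
open Vale.Agent.P146.U (P1)
open Vale.Agent.P146.H758 (Pu)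

variable {β : ℝ}

theorem ja (hβ : 1 < β) : JA β (1 / 200) := S3.joint_all hβ (by norm_num) (by norm_num)

theorem cvx (n : ℕ) (β : ℝ) (x : ℝ) (hx : 0 < x) (hx1 : x ≤ 1 / 2) :
    ConcaveOn ℝ (Ici 0) (Phn n β x) := H320.Conc.Phn_conc n β hx (by linarith)

/-- **The start**, letters `Phn`. -/
theorem start_phn (hβ : 1 < β) {s : ℝ} (hs : 0 < s) : ∀ᶠ n : ℕ in atTop, ∀ x : ℝ,
      (n : ℝ) ^ (-(1 / 6) + s) ≤ x → x ≤ (n : ℝ) ^ (-(1 / 100) : ℝ) →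
      (∀ w : ℝ, 0 ≤ w → w ≤ (n : ℝ) ^ (-s) * x ^ 3 →
        0 ≤ Phn n β x w - Phn n β x 0 - n * w / (2 * β)) ∧
      (∀ w : ℝ, 0 ≤ w → w ≤ x ^ 3 →
        -((n : ℝ) ^ s * (n * x ^ 5)) ≤ Phn n β x w - Phn n β x 0 - n * w / (2 * β)) :=
  start_of_ja hβ (ja hβ) (fun n x hx hx1 => cvx n β x hx hx1) hs

/-- **The start** in the letters `fe (skS n 1 ..)`, `P1`. -/
theorem start_fe (hβ : 1 < β) {s : ℝ} (hs : 0 < s) : ∀ᶠ n : ℕ in atTop, ∀ x : ℝ,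
      (n : ℝ) ^ (-(1 / 6) + s) ≤ x → x ≤ (n : ℝ) ^ (-(1 / 100) : ℝ) →
      ∀ m b w : ℕ → ℝ, Em 1 m → m 1 = x → b 1 = β / √n → 0 ≤ w 1 →
      (w 1 ^ 2 ≤ (n : ℝ) ^ (-s) * x ^ 3 →
        P1 n β x + n * w 1 ^ 2 / (2 * β) ≤ (skS n 1 m b w).fe) ∧
      (w 1 ^ 2 ≤ x ^ 3 →
        P1 n β x + n * w 1 ^ 2 / (2 * β) - (n : ℝ) ^ s * (n * x ^ 5) ≤ (skS n 1 m b w).fe) :=
  start_fe_of_ja hβ (ja hβ) (fun n x hx hx1 => cvx n β x hx hx1) hs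

/-- **The start** in the letters `Pu`, `P1`. -/
theorem start_Pu (hβ : 1 < β) {s : ℝ} (hs : 0 < s) : ∀ᶠ n : ℕ in atTop, ∀ x : ℝ,
      (n : ℝ) ^ (-(1 / 6) + s) ≤ x → x ≤ (n : ℝ) ^ (-(1 / 100) : ℝ) →
      (∀ V : ℝ, 0 ≤ V → V ≤ (n : ℝ) ^ (-s) * x ^ 3 →
        P1 n β x + n / (2 * β) * V ≤ Pu n β x V) ∧
      (∀ V : ℝ, 0 ≤ V → V ≤ x ^ 3 →
        P1 n β x + n / (2 * β) * V - (n : ℝ) ^ s * (n * x ^ 5) ≤ Pu n β x V) :=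
  start_Pu_of_ja hβ (ja hβ) (fun n x hx hx1 => cvx n β x hx hx1) hs

/-- The start as a statement with thresholds. -/
theorem stP (hβ : 1 < β) : StP β := stP_of_ja hβ (ja hβ) (fun n x hx hx1 => cvx n β x hx hx1)

end Vale.Agent.P146.H112
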