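import Vale.Agent.P146.H205.S3Def
import Vale.Agent.P146.H122.QF

/-!
# P146: the start of the lower side of the a priori bound (helper112)

From the joint flow of the response and of the upper law (`S3.joint_all`, hypothesis `JA` here):
`φ_x(w) = Φ(x; w) - Φ(x; 0) - n w / (2 β)` is nonnegative for `w ≤ n^(-s) x³` and at least
`-n^s · n x⁵` for `w ≤ x³`, at all scales `n^(-1/6 + s) ≤ x ≤ n^(-1/100)`.
-/

open MeasureTheory ProbabilityTheory Filter Topology Set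

namespace Vale.Agent.P146.H112

open Vale.Agent.P146
open Vale.Agent.P146.H877 (kap At)
open Vale.Agent.P146.H9 (Phn KV)
open Vale.Agent.P146.H205.U4
open Vale.Agent.P146.S3

variable {β : ℝ} {n : ℕ} {x X w W : ℝ}

/-- one `n`, one pair of scales `x ≤ X` -/
theorem star_core (hβ : 0 < β) (hn : 1 ≤ n) (hx : 0 < x) (hxX : x ≤ X) {G E : ℝ}
    (hcv : ConcaveOn ℝ (Ici 0) (Phn n β X)) (hW : 0 < W) (hA : 1 ≤ At β n X W)
    (hK : KV n β (4 * X) 0 ≤ G * (n * (4 * X) ^ 6)) (hw : 0 ≤ w) (hwW : w ≤ W)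
    (hXw : 8 * (X * w) ≤ β) (hE : err β n (4 * X) w ≤ E * (n * X ^ 5)) :
    -((6144 * G + 2 * E) * (n * X ^ 6) / x) ≤ Phn n β x w - Phn n β x 0 - n * w / (2 * β) := by
  have hX : 0 < X := hx.trans_le hxX
  have hn0 : (0 : ℝ) < n := by exact_mod_cast hn
  -- the response at `X`
  have h1 := H178.At_lin hβ hn hcv hW hA hw hwW
  -- contiguity at `2 X`
  have h2 := resp_dbl hβ hn (by positivity : 0 < 2 * X) hw (by linarith)
  have e4 : 2 * (2 * X) = 4 * X := by ring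
  rw [e4] at h2
  -- the increment without field
  have h3 := (H9.Phn_sub_bd n β 0 hX (by linarith : X ≤ 4 * X)).2
  have h3' : Phn n β (4 * X) 0 - Phn n β X 0 ≤ 3072 * G * (n * X ^ 5) := by
    refine h3.trans ?_
    have h4 : 0 ≤ 1 / X - 1 / (4 * X) := by
      have : 1 / (4 * X) ≤ 1 / X := one_div_le_one_div_of_le hX (by linarith)
      linarith
    refine (mul_le_mul_of_nonneg_right hK h4).trans (le_of_eq ?_)
    field_simp
    ring
  -- the entropy with field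
  have h5 := H178.KV_le_dbl n β w hX
  have h6 : Phn n β (2 * X) w - Phn n β X w ≤ (3072 * G + E) * (n * X ^ 5) := by linarith
  have h7 : KV n β X w ≤ (6144 * G + 2 * E) * (n * X ^ 6) := by
    refine h5.trans ((mul_le_mul_of_nonneg_left h6 (by positivity)).trans (le_of_eq ?_))
    ring
  -- the exponent `x`
  have h8 := (H9.Phn_sub_bd n β w hx hxX).2
  have h9 : KV n β X w * (1 / x - 1 / X) ≤ (6144 * G + 2 * E) * (n * X ^ 6) / x := by
    have h10 := H9.KV_nonneg n β w hX.le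
    have h11 : 1 / x - 1 / X ≤ 1 / x := by
      have : 0 ≤ 1 / X := by positivity
      linarith
    calc KV n β X w * (1 / x - 1 / X) ≤ KV n β X w * (1 / x) :=
          mul_le_mul_of_nonneg_left h11 h10
      _ ≤ (6144 * G + 2 * E) * (n * X ^ 6) * (1 / x) :=
          mul_le_mul_of_nonneg_right h7 (by positivity)
      _ = _ := by rw [mul_one_div]
  have h12 := H178.Phn_mono n β 0 hx hxX
  linarith

/-- the conclusion of `S3.joint_all` -/
def JA (β b₁ : ℝ) : Prop := ∃ G : ℝ, 0 < G ∧ EV fun n q => ∀ x : ℝ,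
  (n : ℝ) ^ (-(1 / 6) + 1000 * q) ≤ x → x ≤ (n : ℝ) ^ (-b₁) →
  (n : ℝ) ^ (-(11 * q)) * x ^ 2 ≤ H877.At β n x ((n : ℝ) ^ (-(24 * q)) * x ^ 3) - 1 ∧
  KV n β x 0 ≤ G * (n * x ^ 6)

/-- **The start**: both sides of the a priori bound with powers `n ^ s`, `s > 0` arbitrary. -/
theorem start_of_ja (hβ : 1 < β) (hja : JA β (1 / 200))
    (hcv : ∀ n : ℕ, ∀ x : ℝ, 0 < x → x ≤ 1 / 2 → ConcaveOn ℝ (Ici 0) (Phn n β x))
    {s : ℝ} (hs : 0 < s) : ∀ᶠ n : ℕ in atTop, ∀ x : ℝ,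
      (n : ℝ) ^ (-(1 / 6) + s) ≤ x → x ≤ (n : ℝ) ^ (-(1 / 100) : ℝ) →
      (∀ w : ℝ, 0 ≤ w → w ≤ (n : ℝ) ^ (-s) * x ^ 3 →
        0 ≤ Phn n β x w - Phn n β x 0 - n * w / (2 * β)) ∧
      (∀ w : ℝ, 0 ≤ w → w ≤ x ^ 3 →
        -((n : ℝ) ^ s * (n * x ^ 5)) ≤ Phn n β x w - Phn n β x 0 - n * w / (2 * β)) := by
  have hβ0 : 0 < β := by linarith
  obtain ⟨G, hG, h⟩ := hja
  obtain ⟨q1, hq1, h1⟩ := h.at
  set q := min q1 (min (s / 1000) (1 / 10000)) with hqd
  have hq : 0 < q := lt_min hq1 (lt_min (by positivity) (by norm_num))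
  have hqs : 1000 * q ≤ s := by
    have : q ≤ s / 1000 := (min_le_right _ _).trans (min_le_left _ _)
    linarith
  have hq4 : q ≤ 1 / 10000 := (min_le_right _ _).trans (min_le_right _ _)
  have hnat := tendsto_natCast_atTop_atTop (R := ℝ)
  have ev1 := ((tendsto_rpow_atTop (show (0 : ℝ) < 1 / 200 - 8 * q by
    linarith)).comp hnat).eventually_ge_atTop 4
  have ev2 := ((tendsto_rpow_atTop (show (0 : ℝ) < s - 48 * q by linarith)).comp
    hnat).eventually_ge_atTop (6144 * G + 2 * (32 / β ^ 2 + β + 1))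
  have ev3 := ((tendsto_rpow_atTop (show (0 : ℝ) < 1 / 1000 by norm_num)).comp
    hnat).eventually_ge_atTop (max 2 (8 / β))
  have hlog : ∀ᶠ n : ℕ in atTop, Real.log (2 * n) ≤ n ^ (s : ℝ) := by
    have h2 := (isLittleO_log_rpow_atTop hs).bound (show (0 : ℝ) < 1 / 2 by norm_num)
    have h3 := hnat.eventually h2
    have h4 := ((tendsto_rpow_atTop hs).comp hnat).eventually_ge_atTop (2 * Real.log 2)
    filter_upwards [h3, h4, eventually_ge_atTop 1] with n g1 g2 g3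
    have hn0 : (0 : ℝ) < n := by exact_mod_cast g3
    simp only [Function.comp] at g2
    rw [Real.norm_eq_abs, Real.norm_eq_abs, abs_of_pos (Real.rpow_pos_of_pos hn0 s)] at g1
    have := le_abs_self (Real.log (n : ℝ))
    rw [Real.log_mul (by norm_num) hn0.ne']
    linarith
  filter_upwards [h1 q hq (min_le_left _ _), ev1, ev2, ev3, hlog, eventually_ge_atTop 1] with
    n hn1 g1 g2 g3 g4 hn
  intro x hx1 hx2
  have hn0 : (0 : ℝ) < n := by exact_mod_cast hn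
  have hn1' : (1 : ℝ) ≤ n := by exact_mod_cast hn
  simp only [Function.comp] at g1 g2 g3
  have hx : 0 < x := (Real.rpow_pos_of_pos hn0 _).trans_le hx1
  have hmono : ∀ {a b : ℝ}, a ≤ b → (n : ℝ) ^ a ≤ (n : ℝ) ^ b := fun h =>
    Real.rpow_le_rpow_of_exponent_le hn1' h
  have hlow : (n : ℝ) ^ (-(1 / 6) + 1000 * q) ≤ x := (hmono (by linarith)).trans hx1
  -- `x` is small
  have hx3 : x ≤ (n : ℝ) ^ (-(1 / 200) : ℝ) := hx2.trans (hmono (by norm_num))
  have hxs : x ≤ 1 / 2 := by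
    refine hx2.trans ?_
    have e : (n : ℝ) ^ (-(1 / 100) : ℝ) = ((n : ℝ) ^ (1 / 100 : ℝ))⁻¹ := Real.rpow_neg hn0.le _
    rw [e, show (1 / 2 : ℝ) = 2⁻¹ by norm_num]
    refine inv_anti₀ (by norm_num : (0 : ℝ) < 2) ?_
    have h2 : (n : ℝ) ^ (1 / 1000 : ℝ) ≤ (n : ℝ) ^ (1 / 100 : ℝ) := hmono (by norm_num)
    exact ((le_max_left _ _).trans g3).trans h2
  refine ⟨fun w hw0 hw1 => ?_, fun w hw0 hw1 => ?_⟩
  · -- the response at `x`
    obtain ⟨hA, -⟩ := hn1 x hlow hx3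
    have hA1 : 1 ≤ At β n x ((n : ℝ) ^ (-(24 * q)) * x ^ 3) := by
      have : 0 ≤ (n : ℝ) ^ (-(11 * q)) * x ^ 2 := by positivity
      linarith
    have hW : 0 < (n : ℝ) ^ (-(24 * q)) * x ^ 3 := by positivity
    have h2 := H178.At_lin hβ0 hn (hcv n x hx hxs) hW hA1 hw0
      (hw1.trans (mul_le_mul_of_nonneg_right (hmono (by linarith)) (by positivity)))
    linarith
  · -- the larger scale
    set X := (n : ℝ) ^ (8 * q) * x with hXd
    have hr1 : 1 ≤ (n : ℝ) ^ (8 * q) := Real.one_le_rpow hn1' (by positivity)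
    have hxX : x ≤ X := le_mul_of_one_le_left hx.le hr1
    have hX : 0 < X := hx.trans_le hxX
    have h4X : 4 * X ≤ (n : ℝ) ^ (-(1 / 200) : ℝ) := by
      have h2 : X ≤ (n : ℝ) ^ (8 * q) * (n : ℝ) ^ (-(1 / 100) : ℝ) :=
        mul_le_mul_of_nonneg_left hx2 (by positivity)
      rw [← Real.rpow_add hn0] at h2
      have h3 : 4 * X ≤ (n : ℝ) ^ (1 / 200 - 8 * q : ℝ) *
          (n : ℝ) ^ (8 * q + -(1 / 100) : ℝ) :=
        mul_le_mul g1 h2 hX.le (by positivity)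
      rw [← Real.rpow_add hn0] at h3
      refine h3.trans (hmono ?_)
      linarith
    have hX1 : X ≤ (n : ℝ) ^ (-(1 / 200) : ℝ) := by linarith
    have hX2 : X ≤ 1 / 2 := by
      have e : (n : ℝ) ^ (-(1 / 200) : ℝ) = ((n : ℝ) ^ (1 / 200 : ℝ))⁻¹ := Real.rpow_neg hn0.le _
      refine hX1.trans ?_
      rw [e, show (1 / 2 : ℝ) = 2⁻¹ by norm_num]
      refine inv_anti₀ (by norm_num : (0 : ℝ) < 2) ?_
      have h2 : (n : ℝ) ^ (1 / 1000 : ℝ) ≤ (n : ℝ) ^ (1 / 200 : ℝ) := hmono (by norm_num)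
      exact ((le_max_left _ _).trans g3).trans h2
    obtain ⟨hA, -⟩ := hn1 X (hlow.trans hxX) hX1
    have hA1 : 1 ≤ At β n X ((n : ℝ) ^ (-(24 * q)) * X ^ 3) := by
      have : 0 ≤ (n : ℝ) ^ (-(11 * q)) * X ^ 2 := by positivity
      linarith
    obtain ⟨-, hK⟩ := hn1 (4 * X) (by linarith [hlow.trans hxX]) h4X
    -- the field
    have hXx : (n : ℝ) ^ (-(24 * q)) * X ^ 3 = x ^ 3 := by
      rw [hXd, mul_pow, ← mul_assoc, ← Real.rpow_natCast ((n : ℝ) ^ (8 * q)) 3,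
        ← Real.rpow_mul hn0.le, ← Real.rpow_add hn0]
      have : -(24 * q) + 8 * q * ((3 : ℕ) : ℝ) = 0 := by push_cast; ring
      rw [this, Real.rpow_zero, one_mul]
    have hwx : w ≤ X ^ 3 := hw1.trans (pow_le_pow_left₀ hx.le hxX 3)
    have hX3 : X ^ 3 ≤ 1 := pow_le_one₀ hX.le (by linarith)
    have hXb : 8 * X ≤ β := by
      have h2 : X ≤ (n : ℝ) ^ (-(1 / 1000) : ℝ) := hX1.trans (hmono (by norm_num))
      have e : (n : ℝ) ^ (-(1 / 1000) : ℝ) = ((n : ℝ) ^ (1 / 1000 : ℝ))⁻¹ := Real.rpow_neg hn0.le _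
      rw [e] at h2
      have h3 : ((n : ℝ) ^ (1 / 1000 : ℝ))⁻¹ ≤ (8 / β)⁻¹ :=
        inv_anti₀ (by positivity) ((le_max_right _ _).trans g3)
      rw [inv_div] at h3
      linarith
    -- `n X⁵` is large
    have hnx : (n : ℝ) ^ s ≤ n * X ^ 6 := by
      have h2 : (n : ℝ) ^ ((-(1 / 6) + s) * 6) ≤ X ^ 6 := by
        rw [show ((-(1 / 6) + s) * 6 : ℝ) = (-(1 / 6) + s) * ((6 : ℕ) : ℝ) by norm_num,
          Real.rpow_mul hn0.le, Real.rpow_natCast]
        exact pow_le_pow_left₀ (by positivity) (hx1.trans hxX) 6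
      calc (n : ℝ) ^ s ≤ (n : ℝ) ^ (1 + (-(1 / 6) + s) * 6) := hmono (by linarith)
        _ = n * (n : ℝ) ^ ((-(1 / 6) + s) * 6) := by rw [Real.rpow_add hn0, Real.rpow_one]
        _ ≤ n * X ^ 6 := mul_le_mul_of_nonneg_left h2 hn0.le
    have h1X : 1 ≤ n * X ^ 6 := (Real.one_le_rpow hn1' hs.le).trans hnx
    have h1X5 : 1 ≤ n * X ^ 5 := by
      have : n * X ^ 6 ≤ n * X ^ 5 := by
        refine mul_le_mul_of_nonneg_left (pow_le_pow_of_le_one hX.le (by linarith) (by norm_num))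
          hn0.le
      linarith
    have hE : err β n (4 * X) w ≤ (32 / β ^ 2 + β + 1) * (n * X ^ 5) := by
      unfold err
      have p1 : 2 * (n * (4 * X) * w ^ 2) / β ^ 2 ≤ 32 / β ^ 2 * (n * X ^ 5) := by
        have h2 : w ^ 2 ≤ (X ^ 3) ^ 2 := pow_le_pow_left₀ hw0 hwx 2
        have h3 : (X ^ 3) ^ 2 ≤ X ^ 4 := by
          rw [← pow_mul]
          exact pow_le_pow_of_le_one hX.le (by linarith) (by norm_num)
        have h4 : 2 * (n * (4 * X) * w ^ 2) ≤ 32 * (n * X ^ 5) := by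
          have h5 : n * (4 * X) * w ^ 2 ≤ n * (4 * X) * X ^ 4 :=
            mul_le_mul_of_nonneg_left (h2.trans h3) (by positivity)
          have h6 : n * (4 * X) * X ^ 4 = 4 * (n * X ^ 5) := by ring
          have h7 : 0 ≤ n * X ^ 5 := by positivity
          linarith
        rw [div_le_iff₀ (by positivity)]
        refine h4.trans (le_of_eq ?_)
        field_simp
      have p2 : β ≤ β * (n * X ^ 5) := le_mul_of_one_le_right hβ0.le h1X5
      have p3 : 2 * Real.log (2 * n) / (4 * X) ≤ 1 * (n * X ^ 5) := by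
        rw [div_le_iff₀ (by positivity)]
        have h2 : Real.log (2 * n) ≤ n * X ^ 6 := g4.trans hnx
        have h3 : 1 * (n * X ^ 5) * (4 * X) = 4 * (n * X ^ 6) := by ring
        have h4 : 0 ≤ n * X ^ 6 := by positivity
        rw [h3]
        linarith
      linarith
    have h2 := star_core (x := x) (X := X) (w := w) (G := G) hβ0 hn hx hxX (hcv n X hX hX2)
      (by positivity) hA1 hK hw0 (by rw [hXx]; exact hw1)
      (by
        have : X * w ≤ X * 1 := mul_le_mul_of_nonneg_left (hwx.trans hX3) hX.le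
        linarith) hE
    refine le_trans ?_ h2
    rw [neg_le_neg_iff, div_le_iff₀ hx]
    have hXx6 : n * X ^ 6 = (n : ℝ) ^ (48 * q) * (n * x ^ 6) := by
      rw [hXd, mul_pow, ← Real.rpow_natCast ((n : ℝ) ^ (8 * q)) 6, ← Real.rpow_mul hn0.le]
      have : 8 * q * ((6 : ℕ) : ℝ) = 48 * q := by push_cast; ring
      rw [this]
      ring
    rw [hXx6]
    have hsq : (n : ℝ) ^ s = (n : ℝ) ^ (s - 48 * q) * (n : ℝ) ^ (48 * q) := by
      rw [← Real.rpow_add hn0]
      congr 1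
      ring
    rw [hsq]
    have h3 : (6144 * G + 2 * (32 / β ^ 2 + β + 1)) * ((n : ℝ) ^ (48 * q) * (n * x ^ 6)) ≤
        (n : ℝ) ^ (s - 48 * q) * ((n : ℝ) ^ (48 * q) * (n * x ^ 6)) :=
      mul_le_mul_of_nonneg_right g2 (by positivity)
    refine h3.trans (le_of_eq ?_)
    ring

end Vale.Agent.P146.H112
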