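import Vale.Agent.P146.H379.FS3
import Vale.Agent.P146.H9.Mod2
import Vale.Agent.P146.H479.Val
import Vale.Agent.P146.H112.Rec

/-!
# P146: the pure law of the SK model with a white field in the two languages (helper112)

`fe_Phn`: `fe (skS n 1 m b w) = Φ(m 1; w 1 ^ 2)`; `P1_Phn`: the zero field case; `Phn_cx`,
`fe_cx`: convexity of the logarithm of the exponential moment at the exponents `x, 2 x, 3 x`.
-/

open MeasureTheory ProbabilityTheory

namespace Vale.Agent.P146.H112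

open Vale.Agent.P157.Lv Vale.Agent.P146.H425 Vale.Agent.P146.H93 Vale.Agent.P146.H479
open Vale.Agent.P146.H332 Vale.Agent.P146.H325 Vale.Agent.P146.R1
open Vale.Agent.P146.H9 (Phn Fv Sf)

variable {n : ℕ} {β x v : ℝ} {m b w : ℕ → ℝ}

lemma F0_Fv (hb : b 1 = β / √n) (hw : 0 ≤ w 1) (z : Es n → ℝ) :
    F0 n (va b w 1 * z) = Fv n β (w 1 ^ 2) z := by
  unfold F0 Fv ew lz Zp ez
  congr 1
  refine Finset.sum_congr rfl fun x _ => ?_
  congr 1
  rw [one_mul]
  refine Finset.sum_congr rfl fun e _ => ?_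
  rcases e with p | i
  · simp [st, va, am, Sf, hb]
    ring
  · simp [st, va, am, Sf, Real.sqrt_sq hw]
    ring

/-- **The pure law**: `fe = Φ(m 1; w 1 ^ 2)`. -/
theorem fe_Phn (hm : Em 1 m) (hb : b 1 = β / √n) (hw : 0 ≤ w 1) :
    (skS n 1 m b w).fe = Phn n β (m 1) (w 1 ^ 2) := by
  rw [fe_eq hm, VG_succ, VG_zero, H9.Phn_W]
  unfold VW W
  simp only [zero_add, one_smul]
  congr 2
  refine integral_congr_ae (Filter.Eventually.of_forall fun z => ?_)
  simp only [F0_Fv hb hw z]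

/-- the exponents of a pure law -/
noncomputable def m1 (x : ℝ) : ℕ → ℝ := fun l => if l = 0 then 0 else if l = 1 then x else 1

lemma m1_one (x : ℝ) : m1 x 1 = x := by simp [m1]

lemma em_m1 (hx : 0 < x) (hx1 : x ≤ 1) : Em 1 (m1 x) where
  m0 := by simp [m1]
  mK := by simp [m1]
  mono := fun l hl => by
    interval_cases l
    · simp [m1, hx.le]
    · simp [m1, hx1]
  pos := by simpa [m1] using hx

/-- **The pure law without field.** -/
theorem P1_Phn (hx : 0 < x) (hx1 : x ≤ 1) : Phn n β x 0 = W x 1 (U.Fsk n β) 0 := by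
  have h1 := fe_Phn (n := n) (β := β) (m := m1 x) (b := fun _ => β / √n) (w := fun _ => 0)
    (em_m1 hx hx1) rfl le_rfl
  have h2 := fe_one (n := n) (β := β) (m := m1 x) (b := fun _ => β / √n) (w := fun _ => 0)
    (em_m1 hx hx1) rfl rfl
  rw [h1] at h2
  simpa [m1] using h2

/-- **Convexity of the logarithm of the exponential moment.** -/
theorem Phn_cx (hx : 0 < x) :
    4 * Phn n β (2 * x) v - 3 * Phn n β (3 * x) v ≤ Phn n β x v := by
  have hF : Lip (Fv n β v) := (H9.c11_Fv n β v).lip.lip (H9.c11_Fv n β v).B0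
  have hpos : ∀ t : ℝ, 0 < ∫ z, Real.exp (t * Fv n β v z) ∂(gI (Pair n ⊕ Fin n)) := fun t =>
    integral_exp_pos (hF.exp_eg t).integrable
  have h1 := cs_gI (hF.exp_eg (x / 2)) (hF.exp_eg (3 * x / 2))
  have e1 : ∀ z, Real.exp (x / 2 * Fv n β v z) * Real.exp (3 * x / 2 * Fv n β v z) =
      Real.exp (2 * x * Fv n β v z) := fun z => by
    rw [← Real.exp_add]
    congr 1
    ring
  have e2 : ∀ z, Real.exp (x / 2 * Fv n β v z) ^ 2 = Real.exp (x * Fv n β v z) := fun z => by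
    rw [← Real.exp_nat_mul]
    congr 1
    push_cast
    ring
  have e3 : ∀ z, Real.exp (3 * x / 2 * Fv n β v z) ^ 2 = Real.exp (3 * x * Fv n β v z) :=
    fun z => by
    rw [← Real.exp_nat_mul]
    congr 1
    push_cast
    ring
  simp only [e1, e2, e3] at h1
  have h2 := Real.log_le_log (hpos (2 * x)) h1
  rw [Real.log_mul (Real.sqrt_pos.2 (hpos x)).ne' (Real.sqrt_pos.2 (hpos (3 * x))).ne',
    Real.log_sqrt (hpos x).le, Real.log_sqrt (hpos (3 * x)).le] at h2
  unfold Phn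
  rw [H9.LPhi_eq, H9.LPhi_eq, H9.LPhi_eq]
  have e4 : ∀ A B C : ℝ, 4 * (A / (2 * x)) - 3 * (B / (3 * x)) = (2 * A - B) / x := fun A B C => by
    field_simp
    ring
  rw [e4 _ _ 0]
  gcongr
  linarith

/-- the same in the letters of `skS` -/
theorem fe_cx {m2 m3 : ℕ → ℝ} (hm : Em 1 m) (hm2 : Em 1 m2) (hm3 : Em 1 m3) (h2 : m2 1 = 2 * m 1)
    (h3 : m3 1 = 3 * m 1) (hb : b 1 = β / √n) (hw : 0 ≤ w 1) :
    4 * (skS n 1 m2 b w).fe - 3 * (skS n 1 m3 b w).fe ≤ (skS n 1 m b w).fe := by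
  rw [fe_Phn hm hb hw, fe_Phn hm2 hb hw, fe_Phn hm3 hb hw, h2, h3]
  exact Phn_cx hm.pos

end Vale.Agent.P146.H112
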