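import Vale.Agent.P146.H112.StartA
import Vale.Agent.P146.H112.StartFe
import Vale.Agent.P146.U.AP3

/-!
# P146: the start of the lower side of the a priori bound in the letters of `skS` (helper112)
-/

open MeasureTheory ProbabilityTheory Filter Topology Set

namespace Vale.Agent.P146.H112

open Vale.Agent.P157.Lv Vale.Agent.P146.H93
open Vale.Agent.P146.H9 (Phn)
open Vale.Agent.P146.S3
open Vale.Agent.P146.U (P1)

variable {β : ℝ}

/-- **The start** in the letters `fe (skS n 1 ..)`, `P1`. -/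
theorem start_fe_of_ja (hβ : 1 < β) (hja : JA β (1 / 200))
    (hcv : ∀ n : ℕ, ∀ x : ℝ, 0 < x → x ≤ 1 / 2 → ConcaveOn ℝ (Ici 0) (Phn n β x))
    {s : ℝ} (hs : 0 < s) : ∀ᶠ n : ℕ in atTop, ∀ x : ℝ,
      (n : ℝ) ^ (-(1 / 6) + s) ≤ x → x ≤ (n : ℝ) ^ (-(1 / 100) : ℝ) →
      ∀ m b w : ℕ → ℝ, Em 1 m → m 1 = x → b 1 = β / √n → 0 ≤ w 1 →
      (w 1 ^ 2 ≤ (n : ℝ) ^ (-s) * x ^ 3 →
        P1 n β x + n * w 1 ^ 2 / (2 * β) ≤ (skS n 1 m b w).fe) ∧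
      (w 1 ^ 2 ≤ x ^ 3 →
        P1 n β x + n * w 1 ^ 2 / (2 * β) - (n : ℝ) ^ s * (n * x ^ 5) ≤ (skS n 1 m b w).fe) := by
  filter_upwards [start_of_ja hβ hja hcv hs, eventually_ge_atTop 1] with n h hn
  intro x hx1 hx2 m b w hm hmx hb hw
  have hn0 : (0 : ℝ) < n := by exact_mod_cast hn
  have hn1 : (1 : ℝ) ≤ n := by exact_mod_cast hn
  obtain ⟨h1, h2⟩ := h x hx1 hx2
  have hx : 0 < x := (Real.rpow_pos_of_pos hn0 _).trans_le hx1
  have hxx : x ≤ 1 := hx2.trans (Real.rpow_le_one_of_one_le_of_nonpos hn1 (by norm_num))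
  have e1 : (skS n 1 m b w).fe = Phn n β x (w 1 ^ 2) := by rw [fe_Phn hm hb hw, hmx]
  have e2 : P1 n β x = Phn n β x 0 := (P1_Phn hx hxx).symm
  rw [e1, e2]
  refine ⟨fun h3 => ?_, fun h3 => ?_⟩
  · have := h1 (w 1 ^ 2) (sq_nonneg _) h3
    linarith
  · have := h2 (w 1 ^ 2) (sq_nonneg _) h3
    linarith

end Vale.Agent.P146.H112
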