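import Vale.Agent.P146.H112.StartB
import Vale.Agent.P146.H758.Sand

/-!
# P146: the start of the lower side of the a priori bound in the letters `Pu` (helper112)
-/

open MeasureTheory ProbabilityTheory Filter Topology Set

namespace Vale.Agent.P146.H112

open Vale.Agent.P157.Lv Vale.Agent.P146.H93
open Vale.Agent.P146.H9 (Phn)
open Vale.Agent.P146.U (P1)
open Vale.Agent.P146.H758 (Pu)

variable {β : ℝ}

/-- `Pu = Φ`. -/
theorem Pu_Phn {n : ℕ} {x V : ℝ} (hx : 0 < x) (hx1 : x ≤ 1) (hV : 0 ≤ V) :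
    Pu n β x V = Phn n β x V := by
  unfold Pu
  rw [fe_Phn (H66.em_cm le_rfl hx hx1) rfl (Real.sqrt_nonneg V), Real.sq_sqrt hV]
  congr 1

/-- **The start** in the letters `Pu`, `P1`. -/
theorem start_Pu_of_ja (hβ : 1 < β) (hja : JA β (1 / 200))
    (hcv : ∀ n : ℕ, ∀ x : ℝ, 0 < x → x ≤ 1 / 2 → ConcaveOn ℝ (Ici 0) (Phn n β x))
    {s : ℝ} (hs : 0 < s) : ∀ᶠ n : ℕ in atTop, ∀ x : ℝ,
      (n : ℝ) ^ (-(1 / 6) + s) ≤ x → x ≤ (n : ℝ) ^ (-(1 / 100) : ℝ) →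
      (∀ V : ℝ, 0 ≤ V → V ≤ (n : ℝ) ^ (-s) * x ^ 3 →
        P1 n β x + n / (2 * β) * V ≤ Pu n β x V) ∧
      (∀ V : ℝ, 0 ≤ V → V ≤ x ^ 3 →
        P1 n β x + n / (2 * β) * V - (n : ℝ) ^ s * (n * x ^ 5) ≤ Pu n β x V) := by
  filter_upwards [start_of_ja hβ hja hcv hs, eventually_ge_atTop 1] with n h hn
  intro x hx1 hx2
  have hn0 : (0 : ℝ) < n := by exact_mod_cast hn
  have hn1 : (1 : ℝ) ≤ n := by exact_mod_cast hn
  obtain ⟨h1, h2⟩ := h x hx1 hx2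
  have hx : 0 < x := (Real.rpow_pos_of_pos hn0 _).trans_le hx1
  have hxx : x ≤ 1 := hx2.trans (Real.rpow_le_one_of_one_le_of_nonpos hn1 (by norm_num))
  have e2 : P1 n β x = Phn n β x 0 := (P1_Phn hx hxx).symm
  refine ⟨fun V h0 h3 => ?_, fun V h0 h3 => ?_⟩
  · have := h1 V h0 h3
    rw [e2, Pu_Phn hx hxx h0]
    have e : (n : ℝ) / (2 * β) * V = n * V / (2 * β) := by ring
    rw [e]
    linarith
  · have := h2 V h0 h3
    rw [e2, Pu_Phn hx hxx h0]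
    have e : (n : ℝ) / (2 * β) * V = n * V / (2 * β) := by ring
    rw [e]
    linarith

/-- The start as a statement with thresholds (letters of helper595's `StarSK`). -/
def StP (β : ℝ) : Prop := ∀ q : ℝ, 0 < q → ∃ n0 : ℕ, ∀ n : ℕ, n0 ≤ n → ∀ x V : ℝ,
  (n : ℝ) ^ (-(1 / 9) : ℝ) ≤ x → x ≤ (n : ℝ) ^ (-(1 / 11) : ℝ) → 0 ≤ V → V ≤ x ^ 3 →
    P1 n β x + n / (2 * β) * V - (n : ℝ) ^ q * (n * x ^ 5) ≤ Pu n β x V

theorem stP_of_ja (hβ : 1 < β) (hja : JA β (1 / 200))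
    (hcv : ∀ n : ℕ, ∀ x : ℝ, 0 < x → x ≤ 1 / 2 → ConcaveOn ℝ (Ici 0) (Phn n β x)) : StP β := by
  intro q hq
  have hs : 0 < min q (1 / 18) := lt_min hq (by norm_num)
  obtain ⟨n0, h⟩ := eventually_atTop.1
    ((start_Pu_of_ja hβ hja hcv hs).and (eventually_ge_atTop 1))
  refine ⟨n0, fun n hn x V hx1 hx2 hV hV1 => ?_⟩
  obtain ⟨h1, hn1⟩ := h n hn
  have hn1' : (1 : ℝ) ≤ n := by exact_mod_cast hn1
  have hn0 : (0 : ℝ) < n := by linarith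
  have hx : 0 < x := (Real.rpow_pos_of_pos hn0 _).trans_le hx1
  have h2 := (h1 x (le_trans (Real.rpow_le_rpow_of_exponent_le hn1' (by
      have : min q (1 / 18 : ℝ) ≤ 1 / 18 := min_le_right _ _
      linarith)) hx1)
    (hx2.trans (Real.rpow_le_rpow_of_exponent_le hn1' (by norm_num)))).2 V hV hV1
  have h3 : (n : ℝ) ^ (min q (1 / 18 : ℝ)) ≤ (n : ℝ) ^ q :=
    Real.rpow_le_rpow_of_exponent_le hn1' (min_le_left _ _)
  have h4 : (n : ℝ) ^ (min q (1 / 18 : ℝ)) * (n * x ^ 5) ≤ (n : ℝ) ^ q * (n * x ^ 5) := by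
    gcongr
  linarith

end Vale.Agent.P146.H112
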